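import Mathlib
import Vale.Agent.P260.Defs

/-! Block [B2b] of T1 (P260): equivariant maps given by tables. -/

namespace Vale.Agent.P260.H571

open Finset Module

section table

variable {k : Type*} [Field k] {G Q : Type*} [Group G] [Group Q] {T U : Type*}

/-- the equivariant linear map with table `b`. -/
noncomputable def D (b : T → (G × U →₀ k)) : (G × T →₀ k) →ₗ[k] (G × U →₀ k) :=
  Finsupp.linearCombination k
    (fun p : G × T => (b p.2).mapDomain (fun q : G × U => (p.1 * q.1, q.2)))

/-- push forward of a table. -/
noncomputable def pushB (π : G →* Q) (b : T → (G × U →₀ k)) : T → (Q × U →₀ k) :=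
  fun t => (b t).mapDomain (Prod.map π id)

theorem D_single (b : T → (G × U →₀ k)) (p : G × T) (a : k) :
    D b (Finsupp.single p a) =
      a • (b p.2).mapDomain (fun q : G × U => (p.1 * q.1, q.2)) := by
  simp [D]

theorem map_D (π : G →* Q) (b : T → (G × U →₀ k)) (f : G × T →₀ k) :
    (D b f).mapDomain (Prod.map π id) = D (pushB π b) (f.mapDomain (Prod.map π id)) := by
  induction f using Finsupp.induction_linear with
  | zero => simp
  | add f g hf hg => rw [map_add, Finsupp.mapDomain_add, Finsupp.mapDomain_add, map_add, hf, hg]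
  | single p a =>
    rw [D_single, Finsupp.mapDomain_single, D_single, Finsupp.mapDomain_smul]
    congr 1
    rw [pushB, ← Finsupp.mapDomain_comp, ← Finsupp.mapDomain_comp]
    congr 1
    funext q
    simp

/-- left translations. -/
theorem D_transl (b : T → (G × U →₀ k)) (g : G) (f : G × T →₀ k) :
    D b (f.mapDomain (fun p : G × T => (g * p.1, p.2))) =
      (D b f).mapDomain (fun p : G × U => (g * p.1, p.2)) := by
  induction f using Finsupp.induction_linear with
  | zero => simp
  | add f g hf hg => rw [map_add, Finsupp.mapDomain_add, Finsupp.mapDomain_add, map_add, hf, hg]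
  | single p a =>
    rw [D_single, Finsupp.mapDomain_single, D_single, Finsupp.mapDomain_smul]
    congr 1
    rw [← Finsupp.mapDomain_comp]
    congr 1
    funext q
    simp [mul_assoc]

omit [Group G] in
theorem sum_supp (c : G × U →₀ k) (S : Finset G) (hS : ∀ p ∈ c.support, p.1 ∈ S) (u : U)
    (F : G × U → k → k) (hF0 : ∀ q, F q 0 = 0) (hFu : ∀ q a, q.2 ≠ u → F q a = 0) :
    c.sum F = ∑ s ∈ S, F (s, u) (c (s, u)) := by
  classical
  have h1 : c.sum F = ∑ q ∈ c.support ∪ S ×ˢ ({u} : Finset U), F q (c q) :=
    Finsupp.sum_of_support_subset c subset_union_left F (fun q _ => hF0 q)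
  have h2 : ∑ q ∈ S ×ˢ ({u} : Finset U), F q (c q) =
      ∑ q ∈ c.support ∪ S ×ˢ ({u} : Finset U), F q (c q) := sum_subset subset_union_right ?_
  · rw [h1, ← h2, sum_product]
    simp
  · intro q hq hq'
    apply hFu
    intro h
    apply hq'
    rcases mem_union.1 hq with h1 | h1
    · rw [mem_product]
      exact ⟨hS q h1, by rw [mem_singleton]; exact h⟩
    · exact h1

theorem D_apply (π : G →* Q) (b : T → (G × U →₀ k)) [Fintype T] (S : Finset G)
    (hS : ∀ t, ∀ p ∈ (b t).support, p.1 ∈ S) (z : Q × T →₀ k) (y : Q) (u : U) :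
    D (pushB π b) z (y, u) = ∑ t, ∑ s ∈ S, b t (s, u) * z (y * (π s)⁻¹, t) := by
  classical
  induction z using Finsupp.induction_linear with
  | zero => simp
  | add f g hf hg =>
    rw [map_add, Finsupp.add_apply, hf, hg, ← sum_add_distrib]
    refine sum_congr rfl fun t _ => ?_
    rw [← sum_add_distrib]
    refine sum_congr rfl fun s _ => ?_
    rw [Finsupp.add_apply]
    ring
  | single p a =>
    obtain ⟨x, t0⟩ := p
    rw [D_single, pushB, ← Finsupp.mapDomain_comp]
    rw [Finsupp.smul_apply, Finsupp.mapDomain, Finsupp.sum_apply]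
    rw [Fintype.sum_eq_single t0 (by
      intro t ht
      apply sum_eq_zero
      intro s _
      rw [Finsupp.single_apply, if_neg, mul_zero]
      intro h
      exact ht (Prod.ext_iff.1 h).2.symm)]
    rw [sum_supp (b t0) S (hS t0) u
      (fun q c => (Finsupp.single (((fun q : Q × U => ((x, t0).1 * q.1, q.2)) ∘
        Prod.map π id) q) c) (y, u)) (fun q => by simp)
      (fun q c hq => by
        rw [Finsupp.single_apply, if_neg]
        intro h
        exact hq (Prod.ext_iff.1 h).2)]
    rw [smul_eq_mul, mul_sum]
    refine sum_congr rfl fun s _ => ?_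
    rw [Finsupp.single_apply, Finsupp.single_apply]
    by_cases h : x * π s = y
    · subst h
      simp [mul_comm]
    · rw [if_neg, if_neg]
      · simp
      · intro h1
        apply h
        have := (Prod.ext_iff.1 h1).1
        simp only at this
        rw [this]
        simp
      · intro h1
        exact h (Prod.ext_iff.1 h1).1

end table

end Vale.Agent.P260.H571
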