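import Mathlib
import Vale.Agent.P260.Defs
import Vale.Agent.P260.H571.Table

/-! Block [B2b] of T1 (P260): Foelner + matroid bases. -/

namespace Vale.Agent.P260.H571

open Finset Module

section base

variable {k : Type*} [Field k] {Ω : Type*} [Finite Ω]

/-- a matroid base of a subspace of `k^Ω`. -/
theorem exists_base (W : Submodule k (Ω →₀ k)) :
    ∃ B : Finset Ω, B.card = finrank k W ∧ ∀ w ∈ W, (∀ ω ∈ B, w ω = 0) → w = 0 := by
  classical
  have := Fintype.ofFinite Ω
  let P : Finset Ω → Prop := fun B => ∀ w ∈ W, (∀ ω ∈ B, w ω = 0) → w = 0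
  have hne : ∃ n, ∃ B : Finset Ω, P B ∧ B.card = n :=
    ⟨_, univ, fun w _ h => Finsupp.ext fun ω => h ω (mem_univ ω), rfl⟩
  obtain ⟨B, hB, hc⟩ := Nat.find_spec hne
  have hmin : ∀ B' : Finset Ω, P B' → B.card ≤ B'.card := by
    intro B' hB'
    rw [hc]
    exact Nat.find_min' hne ⟨B', hB', rfl⟩
  refine ⟨B, ?_, hB⟩
  let Φ : W →ₗ[k] (B → k) :=
    LinearMap.pi fun ω => (Finsupp.lapply (ω : Ω)).comp W.subtype
  have hΦ : Function.Injective Φ := by
    rw [injective_iff_map_eq_zero]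
    intro w hw
    have : (w : Ω →₀ k) = 0 := hB w w.2 fun ω hω => congrFun hw ⟨ω, hω⟩
    exact Subtype.ext this
  have hle : finrank k W ≤ B.card := by
    have := LinearMap.finrank_le_finrank_of_injective hΦ
    simpa using this
  by_contra hcon
  have hlt : finrank k W < B.card := lt_of_le_of_ne hle (fun h => hcon h.symm)
  -- the range of Φ is proper
  have hran : LinearMap.range Φ < ⊤ := by
    rw [lt_top_iff_ne_top]
    intro htop
    have h1 := LinearMap.finrank_range_of_inj hΦ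
    rw [htop, finrank_top, finrank_fintype_fun_eq_card] at h1
    simp at h1
    omega
  obtain ⟨f, hf0, hf⟩ := Submodule.exists_le_ker_of_lt_top _ hran
  -- some coordinate of f is non-zero
  have : ∃ ω : B, f (Pi.single ω 1) ≠ 0 := by
    by_contra h
    push Not at h
    apply hf0
    apply LinearMap.pi_ext'
    intro i
    ext
    simp [h]
  obtain ⟨ω0, hω0⟩ := this
  have hP : P (B.erase ω0) := by
    intro w hw hw0
    apply hB w hw
    intro ω hω
    by_cases h : ω = ω0
    · have hz : f (Φ ⟨w, hw⟩) = 0 := hf ⟨⟨w, hw⟩, rfl⟩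
      have hex : Φ ⟨w, hw⟩ = (w (ω0 : Ω)) • (Pi.single ω0 (1 : k) : B → k) := by
        funext ω'
        by_cases h' : ω' = ω0
        · subst h'
          simp [Φ]
        · have h2 : (ω' : Ω) ≠ ω0 := fun h3 => h' (Subtype.ext h3)
          have h4 : w (ω' : Ω) = 0 := hw0 _ (mem_erase.2 ⟨h2, ω'.2⟩)
          simp [Φ, h', h4]
      rw [hex, map_smul, smul_eq_mul] at hz
      rcases mul_eq_zero.1 hz with h5 | h5
      · rw [h]; exact h5
      · exact absurd h5 hω0
    · exact hw0 ω (mem_erase.2 ⟨h, hω⟩)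
  have h6 := hmin _ hP
  rw [card_erase_of_mem ω0.2] at h6
  have : 0 < B.card := card_pos.2 ⟨_, ω0.2⟩
  omega

/-- evaluation at a subset of a base is onto. -/
theorem base_surj {W : Submodule k (Ω →₀ k)} {B : Finset Ω} (hc : B.card = finrank k W)
    (hB : ∀ w ∈ W, (∀ ω ∈ B, w ω = 0) → w = 0) (B' : Finset Ω) (hB' : B' ⊆ B) :
    Function.Surjective (LinearMap.pi fun ω : B' => (Finsupp.lapply (ω : Ω)).comp W.subtype :
      W →ₗ[k] (B' → k)) := by
  classical
  have := Fintype.ofFinite Ω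
  let Φ : W →ₗ[k] (B → k) :=
    LinearMap.pi fun ω => (Finsupp.lapply (ω : Ω)).comp W.subtype
  have hΦ : Function.Injective Φ := by
    rw [injective_iff_map_eq_zero]
    intro w hw
    have : (w : Ω →₀ k) = 0 := hB w w.2 fun ω hω => congrFun hw ⟨ω, hω⟩
    exact Subtype.ext this
  have hs : Function.Surjective Φ := by
    have hfr : finrank k W = finrank k (B → k) := by
      rw [finrank_fintype_fun_eq_card, Fintype.card_coe, hc]
    have h0 := LinearMap.finrank_range_of_inj hΦ
    rw [hfr] at h0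
    exact LinearMap.range_eq_top.1 (Submodule.eq_top_of_finrank_eq h0)
  intro c
  obtain ⟨w, hw⟩ := hs (fun ω => if h : (ω : Ω) ∈ B' then c ⟨ω, h⟩ else 0)
  refine ⟨w, ?_⟩
  funext ω
  have h1 := congrFun hw ⟨(ω : Ω), hB' ω.2⟩
  simp only [ω.2, dif_pos] at h1
  exact h1

end base


section folner

variable {G : Type*} [Group G]

open Classical in
/-- right Foelner sets. -/
theorem folner_right (hF : Folner G) (S : Finset G) (ε : ℝ) (hε : 0 < ε) :
    ∃ F : Finset G, F.Nonempty ∧ ∀ s ∈ S, ∀ s' ∈ S,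
      (((F.image fun x => x * s) \ (F.image fun x => x * s')).card : ℝ) ≤ ε * F.card := by
  obtain ⟨F0, hne, hF0⟩ := hF ((S ×ˢ S).image fun p => p.2 * p.1⁻¹) ε hε
  refine ⟨F0.image fun x => x⁻¹, hne.image _, fun s hs s' hs' => ?_⟩
  have h1 := hF0 (s' * s⁻¹) (mem_image.2 ⟨(s, s'), mem_product.2 ⟨hs, hs'⟩, rfl⟩)
  rw [card_image_of_injective F0 inv_injective]
  refine le_trans ?_ h1
  norm_cast
  -- the map `y ↦ s' * y⁻¹`
  refine card_le_card_of_injOn (fun y => s' * y⁻¹) ?_ ?_
  · intro y hy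
    rw [mem_coe, mem_sdiff, mem_image, mem_image] at hy
    obtain ⟨⟨z, hz, rfl⟩, hy2⟩ := hy
    obtain ⟨w, hw, rfl⟩ := mem_image.1 hz
    rw [mem_coe, mem_sdiff]
    refine ⟨mem_image.2 ⟨w, hw, by simp [mul_assoc]⟩, fun h => hy2 ?_⟩
    refine ⟨w⁻¹ * s * s'⁻¹, mem_image.2 ⟨_, h, by simp [mul_assoc]⟩, by simp⟩
  · intro y _ y' _ h
    simpa using h

open Classical in
/-- boundary. -/
noncomputable def bd (S F : Finset G) : Finset G :=
  (S ×ˢ S).biUnion fun p => (F.image fun x => x * p.1) \ (F.image fun x => x * p.2)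

theorem mem_bd {S F : Finset G} {h : G} (h1 : ∃ s ∈ S, h * s⁻¹ ∈ F) (h2 : ∃ s ∈ S, h * s⁻¹ ∉ F) :
    h ∈ bd S F := by
  classical
  obtain ⟨s, hs, hs1⟩ := h1
  obtain ⟨s', hs', hs1'⟩ := h2
  refine mem_biUnion.2 ⟨(s, s'), mem_product.2 ⟨hs, hs'⟩, ?_⟩
  rw [mem_sdiff]
  refine ⟨mem_image.2 ⟨_, hs1, by simp⟩, fun h3 => ?_⟩
  obtain ⟨x, hx, rfl⟩ := mem_image.1 h3
  apply hs1'
  simpa using hx

theorem folner_bd (hF : Folner G) (S : Finset G) (ε : ℝ) (hε : 0 < ε) :
    ∃ F : Finset G, F.Nonempty ∧ ((bd S F).card : ℝ) ≤ ε * F.card := by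
  classical
  obtain ⟨F, hne, h⟩ := folner_right hF S (ε / (S.card * S.card + 1)) (by positivity)
  refine ⟨F, hne, ?_⟩
  have h1 : (bd S F).card ≤ ∑ p ∈ S ×ˢ S,
      ((F.image fun x => x * p.1) \ (F.image fun x => x * p.2)).card := by
    rw [bd]
    convert card_biUnion_le
  have h2 : ((bd S F).card : ℝ) ≤ ∑ p ∈ S ×ˢ S, ε / (S.card * S.card + 1) * F.card := by
    have h1' := (Nat.cast_le (α := ℝ)).2 h1
    rw [Nat.cast_sum] at h1'
    refine h1'.trans (sum_le_sum fun p hp => ?_)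
    convert h p.1 (mem_product.1 hp).1 p.2 (mem_product.1 hp).2
  rw [sum_const, card_product, nsmul_eq_mul] at h2
  refine h2.trans ?_
  push_cast
  rw [← mul_assoc]
  refine mul_le_mul_of_nonneg_right ?_ (by positivity)
  rw [mul_div_assoc', div_le_iff₀ (by positivity)]
  nlinarith

end folner

section main

variable {k : Type*} [Field k] {G : Type*} [Group G] {T U : Type*}

/-- cycles supported in `F × T`. -/
noncomputable def ZF (b : T → (G × U →₀ k)) (F : Finset G) : Submodule k (G × T →₀ k) :=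
  LinearMap.ker (D b) ⊓ Finsupp.supported k k {p : G × T | p.1 ∈ F}

instance finZF [Finite T] (b : T → (G × U →₀ k)) (F : Finset G) :
    FiniteDimensional k (ZF b F) := by
  have : Finite {p : G × T | p.1 ∈ F} := by
    apply Set.Finite.to_subtype
    have : {p : G × T | p.1 ∈ F} = (F : Set G) ×ˢ (Set.univ : Set T) := by
      ext p; simp
    rw [this]
    exact F.finite_toSet.prod Set.finite_univ
  have h2 : FiniteDimensional k (Finsupp.supported k k {p : G × T | p.1 ∈ F}) :=
    Module.Finite.equiv (Finsupp.supportedEquivFinsupp (M := k) (R := k)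
      {p : G × T | p.1 ∈ F}).symm
  exact Submodule.finiteDimensional_of_le (S₂ := Finsupp.supported k k {p : G × T | p.1 ∈ F})
    inf_le_right

omit [Group G] in
theorem finrank_supported_le [Fintype U] (B : Finset G) :
    FiniteDimensional k (Finsupp.supported k k {p : G × U | p.1 ∈ B}) ∧
    finrank k (Finsupp.supported k k {p : G × U | p.1 ∈ B}) = B.card * Fintype.card U := by
  have e := Finsupp.supportedEquivFinsupp (M := k) (R := k) {p : G × U | p.1 ∈ B}
  have e2 : {p : G × U | p.1 ∈ B} ≃ B × U :=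
    { toFun := fun p => (⟨p.1.1, p.2⟩, p.1.2)
      invFun := fun p => ⟨(p.1.1, p.2), p.1.2⟩
      left_inv := fun _ => rfl
      right_inv := fun _ => rfl }
  have : Fintype {p : G × U | p.1 ∈ B} := Fintype.ofEquiv _ e2.symm
  refine ⟨Module.Finite.equiv e.symm, ?_⟩
  rw [LinearEquiv.finrank_eq e, finrank_finsupp_self, Fintype.card_congr e2, Fintype.card_prod,
    Fintype.card_coe]

variable (N : Subgroup G) [N.Normal]

/-- the window map: restriction of a chain on `G ⧸ N` to the window `x · F`. -/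
noncomputable def win [Fintype T] (F : Finset G) (x : G ⧸ N) :
    ((G ⧸ N) × T →₀ k) →ₗ[k] (G × T →₀ k) :=
  ∑ g ∈ F, ∑ t : T, (Finsupp.lsingle (g, t)).comp (Finsupp.lapply (x * (g : G ⧸ N), t))

open Classical in
theorem win_apply [Fintype T] (F : Finset G) (x : G ⧸ N) (z : (G ⧸ N) × T →₀ k) (h : G) (t : T) :
    win N F x z (h, t) = if h ∈ F then z (x * (h : G ⧸ N), t) else 0 := by
  classical
  rw [win, LinearMap.sum_apply, Finsupp.finsetSum_apply]
  have h1 : ∀ g ∈ F, ((∑ t : T, (Finsupp.lsingle (M := k) (R := k) (g, t)).comp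
      (Finsupp.lapply (x * (g : G ⧸ N), t))) z) (h, t) =
      if g = h then z (x * (h : G ⧸ N), t) else 0 := by
    intro g _
    rw [LinearMap.sum_apply, Finsupp.finsetSum_apply]
    by_cases hg : g = h
    · subst hg
      rw [if_pos rfl, Fintype.sum_eq_single t]
      · simp
      · intro t' ht'
        simp [ht']
    · rw [if_neg hg]
      apply sum_eq_zero
      intro t' _
      simp [hg]
  rw [sum_congr rfl h1, sum_ite_eq']

/-- the boundary of a restricted cycle lives on the boundary of the window. -/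
theorem D_win_supp [Fintype T] (b : T → (G × U →₀ k)) (S : Finset G)
    (hS : ∀ t, ∀ p ∈ (b t).support, p.1 ∈ S) (F : Finset G) (x : G ⧸ N)
    (z : (G ⧸ N) × T →₀ k) (hz : D (pushB (QuotientGroup.mk' N) b) z = 0) :
    D b (win N F x z) ∈ Finsupp.supported k k {p : G × U | p.1 ∈ bd S F} := by
  classical
  rw [Finsupp.mem_supported]
  intro p hp
  obtain ⟨h, u⟩ := p
  simp only [Set.mem_ofPred_eq]
  by_contra hcon
  have hid : pushB (MonoidHom.id G) b = b := by
    funext t
    have : Prod.map (⇑(MonoidHom.id G)) (id : U → U) = id := rfl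
    rw [pushB, this, Finsupp.mapDomain_id]
  have hD : D b (win N F x z) (h, u) = ∑ t, ∑ s ∈ S, b t (s, u) * win N F x z (h * s⁻¹, t) := by
    have := D_apply (MonoidHom.id G) b S hS (win N F x z) h u
    rw [hid] at this
    exact this
  have hne : D b (win N F x z) (h, u) ≠ 0 := Finsupp.mem_support_iff.1 hp
  apply hne
  rw [hD]
  by_cases hA : ∃ s ∈ S, h * s⁻¹ ∈ F
  · have hB : ∀ s ∈ S, h * s⁻¹ ∈ F := by
      by_contra h2
      push Not at h2
      exact hcon (mem_bd hA h2)
    have h3 := D_apply (QuotientGroup.mk' N) b S hS z (x * (h : G ⧸ N)) u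
    rw [hz, Finsupp.zero_apply] at h3
    rw [h3]
    refine sum_congr rfl fun t _ => sum_congr rfl fun s hs => ?_
    rw [win_apply, if_pos (hB s hs)]
    congr 2
    rw [mul_assoc]
    rfl
  · push Not at hA
    refine sum_eq_zero fun t _ => sum_eq_zero fun s hs => ?_
    rw [win_apply, if_neg (hA s hs), mul_zero]

open Classical in
/-- the part of a base in a window. -/
noncomputable def BW (B : Finset ((G ⧸ N) × T)) (F : Finset G) (x : G ⧸ N) :
    Finset ((G ⧸ N) × T) :=
  B.filter fun ω => ∃ f ∈ F, x * (f : G ⧸ N) = ω.1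

theorem count_BW [Fintype (G ⧸ N)] (B : Finset ((G ⧸ N) × T)) (F : Finset G)
    (hinj : ∀ f ∈ F, ∀ f' ∈ F, (f : G ⧸ N) = f' → f = f') :
    ∑ x : G ⧸ N, (BW N B F x).card = F.card * B.card := by
  classical
  have h := sum_card_bipartiteAbove_eq_sum_card_bipartiteBelow (s := (univ : Finset (G ⧸ N)))
    (t := B) (fun (x : G ⧸ N) (ω : (G ⧸ N) × T) => ∃ f ∈ F, x * (f : G ⧸ N) = ω.1)
  have h1 : ∀ x : G ⧸ N, BW N B F x = bipartiteAbove
      (fun (x : G ⧸ N) (ω : (G ⧸ N) × T) => ∃ f ∈ F, x * (f : G ⧸ N) = ω.1) B x := by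
    intro x
    rw [BW, bipartiteAbove]
  simp_rw [h1]
  rw [h]
  have h2 : ∀ ω ∈ B, (bipartiteBelow
      (fun (x : G ⧸ N) (ω : (G ⧸ N) × T) => ∃ f ∈ F, x * (f : G ⧸ N) = ω.1)
      (univ : Finset (G ⧸ N)) ω).card = F.card := by
    intro ω _
    have : bipartiteBelow
      (fun (x : G ⧸ N) (ω : (G ⧸ N) × T) => ∃ f ∈ F, x * (f : G ⧸ N) = ω.1)
      (univ : Finset (G ⧸ N)) ω = F.image fun f : G => ω.1 * (f : G ⧸ N)⁻¹ := by
      ext x
      rw [mem_bipartiteBelow, mem_image]
      constructor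
      · rintro ⟨_, f, hf, h⟩
        exact ⟨f, hf, by rw [← h]; simp⟩
      · rintro ⟨f, hf, rfl⟩
        exact ⟨mem_univ _, f, hf, by simp⟩
    rw [this, card_image_of_injOn]
    intro f hf f' hf' h
    simp only [mul_right_inj, inv_inj] at h
    exact hinj f hf f' hf' h
  rw [sum_congr rfl h2, sum_const, smul_eq_mul, mul_comm]

theorem claim_i [Fintype T] [Fintype U] [Finite (G ⧸ N)] (b : T → (G × U →₀ k)) (S : Finset G)
    (hS : ∀ t, ∀ p ∈ (b t).support, p.1 ∈ S) (F : Finset G) (x : G ⧸ N)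
    (B : Finset ((G ⧸ N) × T))
    (hc : B.card = finrank k (LinearMap.ker (D (pushB (QuotientGroup.mk' N) b))))
    (hB : ∀ w ∈ LinearMap.ker (D (pushB (QuotientGroup.mk' N) b)), (∀ ω ∈ B, w ω = 0) → w = 0) :
    (BW N B F x).card ≤ finrank k (ZF b F) + (bd S F).card * Fintype.card U := by
  classical
  have hsub : BW N B F x ⊆ B := filter_subset _ _
  obtain ⟨σ, hσ⟩ := LinearMap.exists_rightInverse_of_surjective _
    (LinearMap.range_eq_top.2 (base_surj hc hB (BW N B F x) hsub))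
  let ψ : (BW N B F x → k) →ₗ[k] (G × T →₀ k) :=
    (win N F x).comp ((Submodule.subtype _).comp σ)
  have hψ : Function.Injective ψ := by
    rw [injective_iff_map_eq_zero]
    intro c hc0
    have h1 : ∀ ω : BW N B F x, (σ c : (G ⧸ N) × T →₀ k) (ω : (G ⧸ N) × T) = 0 := by
      intro ω
      obtain ⟨hω1, f, hf, hf2⟩ := mem_filter.1 ω.2
      have h2 : win N F x (σ c : (G ⧸ N) × T →₀ k) (f, (ω : (G ⧸ N) × T).2) = 0 := by
        have : win N F x (σ c : (G ⧸ N) × T →₀ k) = 0 := hc0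
        rw [this, Finsupp.zero_apply]
      rw [win_apply, if_pos hf, hf2] at h2
      exact h2
    have h3 := LinearMap.congr_fun hσ c
    funext ω
    have h4 := congrFun h3 ω
    rw [Pi.zero_apply]
    have h5 := h1 ω
    simp only [LinearMap.coe_comp, Function.comp_apply, LinearMap.pi_apply,
      LinearMap.id_coe, id_eq, Submodule.coe_subtype, Finsupp.lapply_apply] at h4
    rw [← h4]
    exact h5
  -- the boundary
  let δ : (BW N B F x → k) →ₗ[k] Finsupp.supported k k {p : G × U | p.1 ∈ bd S F} :=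
    LinearMap.codRestrict _ ((D b).comp ψ) (fun c =>
      D_win_supp N b S hS F x (σ c : (G ⧸ N) × T →₀ k) (σ c).2)
  obtain ⟨hfd, hfr⟩ := finrank_supported_le (k := k) (U := U) (bd S F)
  have hrn := LinearMap.finrank_range_add_finrank_ker (K := k) (V := BW N B F x → k)
    (V₂ := Finsupp.supported k k {p : G × U | p.1 ∈ bd S F}) δ
  rw [finrank_fintype_fun_eq_card, Fintype.card_coe] at hrn
  have hr1 : finrank k (LinearMap.range δ) ≤ (bd S F).card * Fintype.card U := by
    rw [← hfr]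
    exact Submodule.finrank_le _
  have hr2 : finrank k (LinearMap.ker δ) ≤ finrank k (ZF b F) := by
    refine LinearMap.finrank_le_finrank_of_injective
      (f := LinearMap.codRestrict (ZF b F) (ψ.comp (Submodule.subtype _)) ?_) ?_
    · intro c
      refine Submodule.mem_inf.2 ⟨?_, ?_⟩
      · have h6 : δ (c : BW N B F x → k) = 0 := c.2
        have h7 := congrArg Subtype.val h6
        exact h7
      · rw [Finsupp.mem_supported]
        intro p hp
        by_contra hcon
        apply Finsupp.mem_support_iff.1 hp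
        change win N F x (σ (c : BW N B F x → k) : (G ⧸ N) × T →₀ k) (p.1, p.2) = 0
        rw [win_apply, if_neg]
        simpa using hcon
    · intro c c' h
      have h8 := congrArg Subtype.val h
      exact Subtype.ext (hψ h8)
  omega

theorem claim_ii [Finite T] (b : T → (G × U →₀ k)) (F : Finset G)
    (hinj : ∀ f ∈ F, ∀ f' ∈ F, (f : G ⧸ N) = f' → f = f') (x : G ⧸ N)
    (B : Finset ((G ⧸ N) × T))
    (hB : ∀ w ∈ (LinearMap.ker (D b)).map
      (Finsupp.lmapDomain k k (Prod.map (QuotientGroup.mk' N) id)), (∀ ω ∈ B, w ω = 0) → w = 0) :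
    finrank k (ZF b F) ≤ (BW N B F x).card := by
  classical
  obtain ⟨g, rfl⟩ := QuotientGroup.mk'_surjective N x
  let φ : G × T → (G ⧸ N) × T := fun p => (QuotientGroup.mk' N g * (p.1 : G ⧸ N), p.2)
  let Θ : ZF b F →ₗ[k] (BW N B F (QuotientGroup.mk' N g) → k) :=
    LinearMap.pi fun ω => (Finsupp.lapply (ω : (G ⧸ N) × T)).comp
      ((Finsupp.lmapDomain k k φ).comp (Submodule.subtype _))
  have hΘ : Function.Injective Θ := by
    rw [injective_iff_map_eq_zero]
    intro f hf
    obtain ⟨f, hf1⟩ := f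
    obtain ⟨hf2, hf3⟩ := Submodule.mem_inf.1 hf1
    rw [Finsupp.mem_supported] at hf3
    have hw : f.mapDomain φ ∈ (LinearMap.ker (D b)).map
        (Finsupp.lmapDomain k k (Prod.map (QuotientGroup.mk' N) id)) := by
      refine ⟨f.mapDomain (fun p => (g * p.1, p.2)), ?_, ?_⟩
      · change D b _ = 0
        rw [D_transl, LinearMap.mem_ker.1 hf2, Finsupp.mapDomain_zero]
      · rw [Finsupp.lmapDomain_apply, ← Finsupp.mapDomain_comp]
        rfl
    have h0 : f.mapDomain φ = 0 := by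
      apply hB _ hw
      intro ω hω
      by_cases hA : ∃ f' ∈ F, (QuotientGroup.mk' N g) * (f' : G ⧸ N) = ω.1
      · exact congrFun hf ⟨ω, mem_filter.2 ⟨hω, hA⟩⟩
      · by_contra h1
        have h2 := Finsupp.mapDomain_support (Finsupp.mem_support_iff.2 h1)
        obtain ⟨p, hp, rfl⟩ := mem_image.1 h2
        exact hA ⟨p.1, hf3 hp, rfl⟩
    have hinj2 : Set.InjOn φ {p : G × T | p.1 ∈ F} := by
      intro p hp p' hp' h
      have h1 := (Prod.ext_iff.1 h).1
      have h2 := (Prod.ext_iff.1 h).2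
      simp only [φ, mul_right_inj] at h1 h2
      exact Prod.ext (hinj _ hp _ hp' h1) h2
    have h1 := Finsupp.mapDomain_injOn (M := k) {p : G × T | p.1 ∈ F} hinj2
    have h2 : f = 0 := h1 hf3 (by simp) (by rw [h0, Finsupp.mapDomain_zero])
    exact Subtype.ext h2
  have := LinearMap.finrank_le_finrank_of_injective hΘ
  rwa [finrank_fintype_fun_eq_card, Fintype.card_coe] at this

end main

section final

variable {k : Type*} [Field k] {G : Type*} [Group G] {T U : Type*}

/-- **B2b**: the cycles of a finite quotient are almost all images of cycles of `G`. -/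
theorem pivot [Finite T] [Finite U] (hF : Folner G) (b : T → (G × U →₀ k)) (ε : ℝ) (hε : 0 < ε) :
    ∃ E : Finset G, ∀ (N : Subgroup G) [N.Normal], N.FiniteIndex → (∀ g ∈ E, g ∈ N → g = 1) →
      (finrank k (LinearMap.ker (D (pushB (QuotientGroup.mk' N) b))) : ℝ) ≤
        finrank k ((LinearMap.ker (D b)).map
          (Finsupp.lmapDomain k k (Prod.map (QuotientGroup.mk' N) id))) + ε * N.index := by
  classical
  have := Fintype.ofFinite T
  have := Fintype.ofFinite U
  let S : Finset G := univ.biUnion fun t : T => (b t).support.image Prod.fst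
  have hS : ∀ t, ∀ p ∈ (b t).support, p.1 ∈ S := fun t p hp =>
    mem_biUnion.2 ⟨t, mem_univ _, mem_image_of_mem _ hp⟩
  obtain ⟨F, hne, hbd⟩ := folner_bd hF S (ε / (Fintype.card U + 1)) (by positivity)
  refine ⟨(F ×ˢ F).image fun p => p.1⁻¹ * p.2, fun N _ hfin hE => ?_⟩
  have hinj : ∀ f ∈ F, ∀ f' ∈ F, (f : G ⧸ N) = f' → f = f' := by
    intro f hf f' hf' h
    have h1 := hE (f⁻¹ * f') (mem_image.2 ⟨(f, f'), mem_product.2 ⟨hf, hf'⟩, rfl⟩)
      (QuotientGroup.eq.1 h)
    rwa [inv_mul_eq_one] at h1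
  have : Finite (G ⧸ N) := Subgroup.finite_quotient_of_finiteIndex
  have := Fintype.ofFinite (G ⧸ N)
  have hidx : N.index = Fintype.card (G ⧸ N) := by
    rw [Subgroup.index, Nat.card_eq_fintype_card]
  obtain ⟨B, hBc, hB⟩ := exists_base (LinearMap.ker (D (pushB (QuotientGroup.mk' N) b)))
  obtain ⟨B', hBc', hB'⟩ := exists_base ((LinearMap.ker (D b)).map
    (Finsupp.lmapDomain k k (Prod.map (QuotientGroup.mk' N) id)))
  have h1 : F.card * B.card ≤
      Fintype.card (G ⧸ N) * (finrank k (ZF b F) + (bd S F).card * Fintype.card U) := by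
    rw [← count_BW N B F hinj]
    refine (sum_le_sum fun x _ => claim_i N b S hS F x B hBc hB).trans ?_
    rw [sum_const, card_univ, smul_eq_mul]
  have h2 : Fintype.card (G ⧸ N) * finrank k (ZF b F) ≤ F.card * B'.card := by
    rw [← count_BW N B' F hinj]
    refine le_trans ?_ (sum_le_sum fun x _ => claim_ii N b F hinj x B' hB')
    rw [sum_const, card_univ, smul_eq_mul]
  have h3 : F.card * B.card ≤
      F.card * B'.card + Fintype.card (G ⧸ N) * ((bd S F).card * Fintype.card U) := by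
    rw [mul_add] at h1
    omega
  rw [← hBc, ← hBc', hidx]
  have hFc : (0 : ℝ) < F.card := by exact_mod_cast hne.card_pos
  have h4 : (F.card : ℝ) * B.card ≤
      F.card * B'.card + Fintype.card (G ⧸ N) * ((bd S F).card * Fintype.card U) := by
    exact_mod_cast h3
  have h5 : ((bd S F).card : ℝ) * Fintype.card U ≤ ε * F.card := by
    have hU : (0 : ℝ) ≤ Fintype.card U := by positivity
    have h6 : ((bd S F).card : ℝ) * Fintype.card U ≤
        (ε / (Fintype.card U + 1) * F.card) * Fintype.card U :=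
      mul_le_mul_of_nonneg_right hbd hU
    refine h6.trans ?_
    rw [div_mul_eq_mul_div, div_mul_eq_mul_div, div_le_iff₀ (by positivity)]
    nlinarith [mul_pos hε hFc]
  have h7 : (F.card : ℝ) * B.card ≤
      F.card * (B'.card + ε * Fintype.card (G ⧸ N)) := by
    have hq : (0 : ℝ) ≤ Fintype.card (G ⧸ N) := by positivity
    nlinarith [mul_le_mul_of_nonneg_left h5 hq]
  exact le_of_mul_le_mul_left h7 hFc

theorem qidx_inf {q : ℕ} [hq : Fact q.Prime] (N₁ N₂ : Subgroup G) [N₁.Normal] [N₂.Normal]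
    (h₁ : ∃ n, N₁.index = q ^ n) (h₂ : ∃ n, N₂.index = q ^ n) :
    ∃ n, (N₁ ⊓ N₂).index = q ^ n := by
  obtain ⟨a, ha⟩ := h₁
  obtain ⟨c, hc⟩ := h₂
  have h1 : (N₁ ⊓ N₂).index = (N₁ ⊓ N₂).relIndex N₁ * N₁.index :=
    (Subgroup.relIndex_mul_index inf_le_left).symm
  have h2 : (N₁ ⊓ N₂).relIndex N₁ = N₂.relIndex N₁ := by
    rw [inf_comm, Subgroup.inf_relIndex_right]
  have h3 : N₂.relIndex N₁ ∣ N₂.index := Subgroup.relIndex_dvd_index_of_normal N₂ N₁
  have h4 : (N₁ ⊓ N₂).index ∣ q ^ (c + a) := by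
    rw [h1, h2, ha, pow_add]
    rw [hc] at h3
    exact Nat.mul_dvd_mul_right h3 _
  obtain ⟨n, _, hn⟩ := (Nat.dvd_prime_pow hq.out).1 h4
  exact ⟨n, hn⟩

theorem exists_qidx {q : ℕ} [hq : Fact q.Prime] (hres : ResQ q G) (E : Finset G) :
    ∃ N : Subgroup G, N.Normal ∧ (∃ n, N.index = q ^ n) ∧ ∀ g ∈ E, g ∈ N → g = 1 := by
  classical
  induction E using Finset.induction_on with
  | empty => exact ⟨⊤, inferInstance, ⟨0, by simp⟩, by simp⟩
  | insert g E _ ih =>
    obtain ⟨N, hN, hn, hE⟩ := ih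
    by_cases hg : g = 1
    · refine ⟨N, hN, hn, fun h hh hhN => ?_⟩
      rcases mem_insert.1 hh with h1 | h1
      · rw [h1, hg]
      · exact hE h h1 hhN
    · obtain ⟨K, hK, hgK, hk⟩ := hres g hg
      refine ⟨N ⊓ K, inferInstance, qidx_inf N K hn hk, fun h hh hhN => ?_⟩
      rcases mem_insert.1 hh with h1 | h1
      · exact absurd (h1 ▸ hhN.2) hgK
      · exact hE h h1 hhN.1

theorem pivotQ {q : ℕ} [hq : Fact q.Prime] [Finite T] [Finite U] [Infinite G] (hF : Folner G)
    (hres : ResQ q G) (b : T → (G × U →₀ k)) (ε : ℝ) (hε : 0 < ε) (m : ℕ) :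
    ∃ (N : Subgroup G) (_ : N.Normal), (∃ n, N.index = q ^ n) ∧ m ≤ N.index ∧
      (finrank k (LinearMap.ker (D (pushB (QuotientGroup.mk' N) b))) : ℝ) ≤
        finrank k ((LinearMap.ker (D b)).map
          (Finsupp.lmapDomain k k (Prod.map (QuotientGroup.mk' N) id))) + ε * N.index := by
  classical
  obtain ⟨E, hE⟩ := pivot hF b ε hε
  obtain ⟨A, hA⟩ := Infinite.exists_subset_card_eq G m
  obtain ⟨N, hN, ⟨n, hn⟩, hEN⟩ := exists_qidx (q := q) hres
    (E ∪ (A ×ˢ A).image fun p => p.1⁻¹ * p.2)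
  have hfin : N.FiniteIndex := ⟨by rw [hn]; exact pow_ne_zero _ hq.out.ne_zero⟩
  have : Finite (G ⧸ N) := Subgroup.finite_quotient_of_finiteIndex
  have := Fintype.ofFinite (G ⧸ N)
  have hidx : N.index = Fintype.card (G ⧸ N) := by
    rw [Subgroup.index, Nat.card_eq_fintype_card]
  refine ⟨N, hN, ⟨n, hn⟩, ?_, hE N hfin fun g hg hgN => hEN g (mem_union_left _ hg) hgN⟩
  rw [hidx, ← hA, ← card_univ]
  refine card_le_card_of_injOn (fun a => (a : G ⧸ N)) (fun _ _ => mem_univ _) ?_
  intro a ha a' ha' h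
  have h1 := hEN (a⁻¹ * a') (mem_union_right _ (mem_image.2 ⟨(a, a'),
    mem_product.2 ⟨ha, ha'⟩, rfl⟩)) (QuotientGroup.eq.1 h)
  rwa [inv_mul_eq_one] at h1

end final

end Vale.Agent.P260.H571
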