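import Vale.Agent.P260.Assembly
import Vale.Agent.P260.H571.Pivot
import Vale.Agent.P260.H679.Euler

/-! Block [B] of T1 (P260): assembly from B1 (`euler'`), B2b (`pivotQ`) and B2a (hypothesis). -/

namespace Vale.Agent.P260.H571

open Finset Module Vale.Agent.P239.M Vale.Agent.P260.B

/-- [B2a]: the second cohomology of a finite index normal subgroup is bounded by the cycles of a
table modulo the images of global cycles. -/
def H2LeTable : Prop :=
  ∀ (q : ℕ) [Fact q.Prime] (G : Type) [Group G], CFillS (ZMod q) G 1 → CFillS (ZMod q) G 2 →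
    ∃ (T U : Type) (_ : Finite T) (_ : Finite U) (b : T → (G × U →₀ ZMod q)),
      ∀ (N : Subgroup G) [N.Normal], N.FiniteIndex →
        hd q N 2 + finrank (ZMod q) ((LinearMap.ker (D b)).map
          (Finsupp.lmapDomain (ZMod q) (ZMod q) (Prod.map (QuotientGroup.mk' N) id))) ≤
        finrank (ZMod q) (LinearMap.ker (D (pushB (QuotientGroup.mk' N) b)))

theorem hd_zero (q : ℕ) [Fact q.Prime] (G : Type) [Group G] : hd q G 0 = 1 := by
  have e : HH q G 0 ≃ₗ[ZMod q] ZMod q :=
    (groupCohomology.H0IsoOfIsTrivial (Rep.trivial (ZMod q) G (ZMod q))).toLinearEquiv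
  rw [hd, e.finrank_eq, finrank_self]

theorem hd_succ_of_subsingleton (q : ℕ) [Fact q.Prime] (G : Type) [Group G] [Subsingleton G]
    (n : ℕ) : hd q G (n + 1) = 0 := by
  have h := isZero_groupCohomology_succ_of_subsingleton (Rep.trivial (ZMod q) G (ZMod q)) n
  have : Subsingleton (HH q G (n + 1)) := ModuleCat.subsingleton_of_isZero h
  exact finrank_zero_of_subsingleton

theorem fin4_of_dual (q : ℕ) [Fact q.Prime] (G : Type) [Group G] (h : Dual4 q G) :
    Fin4 (Rep.trivial (ZMod q) G (ZMod q)) := ⟨h.fin, h.five⟩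

theorem chi_eq (q : ℕ) [Fact q.Prime] (G : Type) [Group G] :
    chi (Rep.trivial (ZMod q) G (ZMod q)) =
      (hd q G 0 : ℤ) - hd q G 1 + hd q G 2 - hd q G 3 + hd q G 4 := rfl

/-- **Block B** from [B2a]. -/
theorem blockB_of (h2 : H2LeTable) : BlockB := by
  intro q hq G _ hF hres hdual
  have hG : Dual4 q G := Dual4.congr (Subgroup.topEquiv) (hdual ⊤ inferInstance)
  rcases finite_or_infinite G with hfin | hinf
  · -- finite groups are trivial
    have : Fintype G := Fintype.ofFinite G
    obtain ⟨N, hN, ⟨n, hn⟩, hE⟩ := exists_qidx (q := q) hres (univ : Finset G)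
    have hbot : N = ⊥ := by
      rw [eq_bot_iff]
      intro g hg
      exact Subgroup.mem_bot.2 (hE g (mem_univ g) hg)
    subst hbot
    obtain ⟨_, h1⟩ := euler' (fin4_of_dual q G hG) (⊥ : Subgroup G) n hn
    rw [chi_eq, chi_eq, hd_zero, hd_succ_of_subsingleton, hd_succ_of_subsingleton,
      hd_succ_of_subsingleton, hd_succ_of_subsingleton] at h1
    have h3 : ((q : ℤ) ^ n) ∣ 1 := ⟨_, by simpa using h1⟩
    have h4 : (q ^ n : ℕ) = 1 := by
      have : ((q ^ n : ℕ) : ℤ) ∣ ((1 : ℕ) : ℤ) := by push_cast; exact h3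
      exact Nat.dvd_one.1 (Int.natCast_dvd_natCast.1 this)
    have h5 : Nat.card G = 1 := by
      rw [← Subgroup.index_bot, hn, h4]
    have : Subsingleton G := (Nat.card_eq_one_iff_unique.1 h5).1
    rw [hd_succ_of_subsingleton]
    omega
  · obtain ⟨T, U, hT, hU, b, hb⟩ := h2 q G hG.fp1 hG.fp2
    obtain ⟨N, hN, ⟨n, hn⟩, hm, hle⟩ := pivotQ (q := q) hF hres b (1 / 4) (by norm_num) 12
    have hNf : N.FiniteIndex := ⟨by omega⟩
    have hb' := hb N hNf
    have hND : Dual4 q N := hdual N hNf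
    obtain ⟨_, h1⟩ := euler' (fin4_of_dual q G hG) N n hn
    rw [chi_eq, hd_zero] at h1
    have h2 : (hd q N 2 : ℝ) ≤ 1 / 4 * N.index := by
      have hb'' : (hd q N 2 : ℝ) + finrank (ZMod q) ((LinearMap.ker (D b)).map
          (Finsupp.lmapDomain (ZMod q) (ZMod q) (Prod.map (QuotientGroup.mk' N) id))) ≤
          finrank (ZMod q) (LinearMap.ker (D (pushB (QuotientGroup.mk' N) b))) := by
        exact_mod_cast hb'
      linarith
    have h2' : 4 * hd q N 2 ≤ N.index := by
      have : (4 * hd q N 2 : ℝ) ≤ N.index := by linarith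
      exact_mod_cast this
    have h4 := hND.four
    have hchi : chi (Rep.trivial (ZMod q) G (ZMod q)) ≤ 0 := by
      by_contra hcon
      push Not at hcon
      have h5 : ((q : ℤ) ^ n) * 1 ≤ (q : ℤ) ^ n * chi (Rep.trivial (ZMod q) G (ZMod q)) :=
        mul_le_mul_of_nonneg_left hcon (by positivity)
      have h6 : ((q : ℤ) ^ n) = (N.index : ℤ) := by rw [hn]; push_cast; rfl
      rw [← h1, h6] at h5
      omega
    rw [chi_eq, hd_zero] at hchi
    have h7 := hG.three
    omega

end Vale.Agent.P260.H571
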